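import Vale.Agent.P214.MathlibUsed

/-! Integral varifolds, stationarity, regular and singular points.

The ambient space `E` is a Euclidean space: a finite-dimensional real inner product space. `μH[m]`
is Mathlib's `m`-dimensional Hausdorff measure; it is a constant multiple of the normalised one,
and every notion below is unchanged when it is rescaled. -/

open MeasureTheory Set Filter Topology Metric
open scoped ENNReal NNReal

namespace Vale.Agent.P214

variable {E : Type*} [NormedAddCommGroup E] [InnerProductSpace ℝ E] [FiniteDimensional ℝ E]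
  [MeasurableSpace E] [BorelSpace E]

/-- orthogonal projection onto a plane -/
noncomputable def proj (T : Submodule ℝ E) : E →L[ℝ] E := T.starProjection

/-- `A` is countably `m`-rectifiable: `H^m`-almost all of `A` is covered by countably many
Lipschitz images of `ℝ^m`. -/
def CountablyRectifiable (m : ℕ) (A : Set E) : Prop :=
  ∃ f : ℕ → (Fin m → ℝ) → E,
    (∀ i, ∃ K : ℝ≥0, LipschitzWith K (f i)) ∧ μH[m] (A \ ⋃ i, range (f i)) = 0

/-- `T` is the approximate tangent plane of `μ` at `x`, with multiplicity `q`: `T` is an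
`m`-plane and the blow-ups of `μ` at `x` converge to `q` times `H^m` on `T`. -/
def IsApproxTangent (m : ℕ) (μ : Measure E) (x : E) (q : ℕ) (T : Submodule ℝ E) : Prop :=
  Module.finrank ℝ T = m ∧ ∀ f : E → ℝ, Continuous f → HasCompactSupport f →
    Tendsto (fun r : ℝ => (∫ y, f (r⁻¹ • (y - x)) ∂μ) / r ^ m) (𝓝[>] 0)
      (𝓝 (q * ∫ y in (T : Set E), f y ∂μH[m]))

/-- the weight `θ H^m ⌞ A` -/
noncomputable def weightOf (m : ℕ) (A : Set E) (θ : E → ℕ) : Measure E :=
  (μH[m].restrict A).withDensity fun x => (θ x : ℝ≥0∞)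

/-- An integral `m`-varifold in `U`. -/
structure IntegralVarifold (m : ℕ) (U : Set E) where
  /-- the rectifiable set -/
  carrier : Set E
  /-- the multiplicity -/
  mult : E → ℕ
  /-- the tangent plane -/
  tangent : E → Submodule ℝ E
  carrier_subset : carrier ⊆ U
  carrier_meas : NullMeasurableSet carrier (μH[m] : Measure E)
  rectifiable : CountablyRectifiable m carrier
  mult_meas : AEMeasurable mult ((μH[m] : Measure E).restrict carrier)
  mult_pos : ∀ x ∈ carrier, 1 ≤ mult x
  locFinite : ∀ K ⊆ U, IsCompact K → weightOf m carrier mult K < ⊤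
  tangent_meas : AEStronglyMeasurable (fun x => proj (tangent x)) (weightOf m carrier mult)
  tangent_spec : ∀ᵐ x ∂(weightOf m carrier mult),
    IsApproxTangent m (weightOf m carrier mult) x (mult x) (tangent x)

/-- `C^1` vector fields with compact support in `U` -/
def IsTestField (U : Set E) (X : E → E) : Prop :=
  ContDiff ℝ 1 X ∧ HasCompactSupport X ∧ tsupport X ⊆ U

/-- the divergence of `X` along `T` at `x`, that is `tr (P_T DX(x))` -/
noncomputable def divAlong (T : Submodule ℝ E) (X : E → E) (x : E) : ℝ :=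
  LinearMap.trace ℝ E ((proj T).comp (fderiv ℝ X x)).toLinearMap

/-- the tangent space at `p` of an embedded submanifold `S` -/
noncomputable def tanSpace (S : Set E) (p : E) : Submodule ℝ E :=
  Submodule.span ℝ (tangentConeAt ℝ S p)

/-- `S` is a smooth embedded `m`-dimensional submanifold (locally straightened by a smooth
diffeomorphism between open sets). -/
def IsSmoothSubmanifold (m : ℕ) (S : Set E) : Prop :=
  ∀ p ∈ S, ∃ Φ : OpenPartialHomeomorph E E, p ∈ Φ.source ∧
    ContDiffOn ℝ (⊤ : ℕ∞) Φ Φ.source ∧ ContDiffOn ℝ (⊤ : ℕ∞) Φ.symm Φ.target ∧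
    ∃ L : Submodule ℝ E, Module.finrank ℝ L = m ∧ Φ '' (S ∩ Φ.source) = (L : Set E) ∩ Φ.target

/-- `S` is minimal in `W`: its first variation vanishes in `W`. -/
def IsMinimalIn (m : ℕ) (S W : Set E) : Prop :=
  ∀ X, IsTestField W X → ∫ p in S, divAlong (tanSpace S p) X p ∂μH[m] = 0

namespace IntegralVarifold

variable {m : ℕ} {U : Set E} (V : IntegralVarifold m U)

/-- the weight measure of the varifold -/
noncomputable def weight : Measure E := weightOf m V.carrier V.mult

/-- stationarity -/
def IsStationary : Prop :=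
  ∀ X, IsTestField U X → ∫ x, divAlong (V.tangent x) X x ∂V.weight = 0

/-- the support of the weight in `U` -/
def spt : Set E := {x ∈ U | ∀ W ∈ 𝓝 x, 0 < V.weight W}

/-- `p` is a regular point: near `p` the varifold is an integer `q ≥ 1` times a smooth embedded
minimal submanifold. -/
def IsRegular (p : E) : Prop :=
  ∃ W S : Set E, ∃ q : ℕ, IsOpen W ∧ p ∈ W ∧ W ⊆ U ∧ V.spt ∩ W = S ∧
    IsSmoothSubmanifold m S ∧ IsMinimalIn m S W ∧ 1 ≤ q ∧
    V.weight.restrict W = (q : ℝ≥0∞) • (μH[m] : Measure E).restrict S

/-- the singular set -/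
def sing : Set E := {p ∈ V.spt | ¬ V.IsRegular p}

/-- `T` is a tangent plane of `V` at `x` along some sequence of scales: the tilt-excess of `V`
relative to `T` in `B_r(x)` tends to zero along a sequence of radii tending to zero (equivalently:
some tangent cone of `V` at `x` is a multiple of the plane `T`). -/
def IsBlowupPlane (x : E) (T : Submodule ℝ E) : Prop :=
  Module.finrank ℝ T = m ∧ ∀ ε > 0, ∃ᶠ r in 𝓝[>] (0 : ℝ),
    ∫ y in ball x r, ‖proj (V.tangent y) - proj T‖ ^ 2 ∂V.weight ≤ ε * r ^ m

/-- `T` is not an accumulation value of the Gauss map at `x`: near `x`, almost all tangent planes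
are either equal to `T` or at a definite distance from `T`. -/
def IsolatedAt (x : E) (T : Submodule ℝ E) : Prop :=
  ∃ r > 0, ∃ δ > 0, ∀ᵐ y ∂V.weight, y ∈ ball x r → V.tangent y ≠ T →
    δ ≤ ‖proj (V.tangent y) - proj T‖

/-- the Gauss map takes finitely many values near `x`, almost everywhere -/
def FiniteGauss (x : E) : Prop :=
  ∃ r > 0, ∃ F : Set (Submodule ℝ E), F.Finite ∧
    ∀ᵐ y ∂V.weight, y ∈ ball x r → V.tangent y ∈ F

end IntegralVarifold

end Vale.Agent.P214
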